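import Vale.Agent.P031.H951.RegVarK

/-!
# P031: regular variation, closed statements
-/

open Finset Filter Topology

namespace Vale.Agent.P031.ML

/-- **Slow variation on the `log log` scale of the whole law of the multiplicity.**
For every `ε > 0` and `P` there is `δ > 0` such that for all large `x` and all `y ≥ 3` with
`|log log y - log log x| ≤ δ (log log x)^(19/20)`, uniformly in all sets `K` and all `S` stable
under new primes `≥ P`,
`|V_{S,K}(y) log y / y - V_{S,K}(x) log x / x| ≤ ε V(x) log x / x`. -/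
theorem slow_variation (ε : ℝ) (P : ℕ) (hε : 0 < ε) : ∃ δ : ℝ, 0 < δ ∧ ∀ᶠ x : ℝ in atTop,
    ∀ y : ℝ, 3 ≤ y →
    |Real.log (Real.log y) - Real.log (Real.log x)| ≤
      δ * Real.log (Real.log x) ^ ((19 : ℝ) / 20) →
    ∀ S K : Set ℕ, Stable P S →
    |(VSK S K y : ℝ) * Real.log y / y - (VSK S K x : ℝ) * Real.log x / x| ≤
      ε * ((V x : ℝ) * Real.log x / x) := by
  obtain ⟨δ, hδ, x₀, h⟩ := H951.regvarK ε hε P
  refine ⟨δ, hδ, ?_⟩
  filter_upwards [eventually_ge_atTop x₀] with x hx y hy hxy S K hS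
  exact h x y hx hy hxy S K hS

lemma stable_univ (P : ℕ) : Stable P Set.univ := fun _ _ _ _ _ _ => by simp

lemma VSK_univ (x : ℝ) : VSK Set.univ Set.univ x = V x := by
  unfold VSK V
  simp

lemma V_pos {x : ℝ} (hx : 1 ≤ x) : 1 ≤ V x := by
  unfold V
  have hfin : {v : ℕ | IsTotient v ∧ (v : ℝ) ≤ x}.Finite := by
    refine (Set.finite_Iic ⌊x⌋₊).subset ?_
    rintro v ⟨-, hv⟩
    exact Nat.le_floor hv
  exact (Set.ncard_pos hfin).2 ⟨1, ⟨1, le_rfl, by simp⟩, by simpa using hx⟩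

/-- the ratio at powers, for every class of positive lower proportion:
`V_{S,K}(x^u) ~ x^(u-1) V_{S,K}(x) / u`. -/
theorem power_ratio (P : ℕ) (S K : Set ℕ) (hS : Stable P S) (c : ℝ) (hc : 0 < c)
    (hlow : ∀ᶠ x : ℝ in atTop, c * V x ≤ VSK S K x) (u : ℝ) (hu : 0 < u) :
    Tendsto (fun x : ℝ => (VSK S K (x ^ u) : ℝ) / (x ^ (u - 1) * VSK S K x)) atTop (𝓝 (1 / u)) := by
  rw [Metric.tendsto_nhds]
  intro ε hε
  obtain ⟨δ, hδ, hev⟩ := slow_variation (c * (u * (ε / 2))) P (by positivity)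
  have hlim : Tendsto (fun x : ℝ => Real.log (Real.log x) ^ ((19 : ℝ) / 20)) atTop atTop :=
    (tendsto_rpow_atTop (by norm_num)).comp (Real.tendsto_log_atTop.comp Real.tendsto_log_atTop)
  have e1 : ∀ᶠ x : ℝ in atTop, |Real.log u| / δ ≤ Real.log (Real.log x) ^ ((19 : ℝ) / 20) :=
    hlim.eventually_ge_atTop _
  have e2 : ∀ᶠ x : ℝ in atTop, 3 ≤ x ^ u := (tendsto_rpow_atTop hu).eventually_ge_atTop 3
  filter_upwards [hev, e1, e2, hlow, eventually_ge_atTop (3 : ℝ)] with x hx h1 h2 h3 h4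
  have hx0 : 0 < x := by linarith only [h4]
  have hlx : 0 < Real.log x := Real.log_pos (by linarith only [h4])
  have hxu : 0 < x ^ u := by positivity
  have hxu1 : 0 < x ^ (u - 1) := by positivity
  have hlog : Real.log (x ^ u) = u * Real.log x := Real.log_rpow hx0 u
  have h5 : Real.log (Real.log (x ^ u)) - Real.log (Real.log x) = Real.log u := by
    rw [hlog, Real.log_mul hu.ne' hlx.ne']; ring
  have h6 := hx (x ^ u) h2 (by rw [h5]; rw [div_le_iff₀ hδ] at h1; linarith only [h1]) S K hS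
  have hV1 : (1 : ℝ) ≤ V x := by exact_mod_cast V_pos (by linarith only [h4])
  have hpos : 0 < (VSK S K x : ℝ) := lt_of_lt_of_le (by positivity) h3
  obtain ⟨v, hv⟩ : ∃ v : ℝ, v = (VSK S K x : ℝ) := ⟨_, rfl⟩
  obtain ⟨w, hw⟩ : ∃ w : ℝ, w = (VSK S K (x ^ u) : ℝ) := ⟨_, rfl⟩
  rw [← hv] at h3 hpos h6 ⊢
  rw [← hw] at h6 ⊢
  rw [hlog] at h6
  have hsplit : x ^ u = x ^ (u - 1) * x := by
    rw [← Real.rpow_add_one hx0.ne']; ring_nf
  have h7 : w / (x ^ (u - 1) * v) - 1 / u =
      (w * (u * Real.log x) / x ^ u - v * Real.log x / x) / (u * (v * Real.log x / x)) := by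
    rw [hsplit]
    generalize x ^ (u - 1) = r at hxu1
    field_simp
  rw [Real.dist_eq, h7, abs_div]
  have h8 : 0 < u * (v * Real.log x / x) := by positivity
  rw [abs_of_pos h8, div_lt_iff₀ h8]
  refine lt_of_le_of_lt h6 ?_
  have h9 : c * V x * (Real.log x / x) ≤ v * (Real.log x / x) := by gcongr
  calc c * (u * (ε / 2)) * ((V x : ℝ) * Real.log x / x)
      = u * (ε / 2) * (c * V x * (Real.log x / x)) := by ring
    _ ≤ u * (ε / 2) * (v * (Real.log x / x)) := by gcongr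
    _ < u * ε * (v * (Real.log x / x)) := by
        have : 0 < u * ε * (v * (Real.log x / x)) := by positivity
        linarith only [this]
    _ = ε * (u * (v * Real.log x / x)) := by ring

/-- `V(x^u) ~ x^(u-1) V(x) / u` for every `u > 0`. -/
theorem power_law (u : ℝ) (hu : 0 < u) :
    Tendsto (fun x : ℝ => (V (x ^ u) : ℝ) / (x ^ (u - 1) * V x)) atTop (𝓝 (1 / u)) := by
  have h := power_ratio 0 Set.univ Set.univ (stable_univ 0) 1 one_pos
    (Eventually.of_forall fun x => by rw [VSK_univ, one_mul]) u hu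
  simpa only [VSK_univ] using h

end Vale.Agent.P031.ML
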