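import Vale.Agent.P031.H951.Reg

/-!
# P031: regular variation of `V` on the `log log` scale, part 2: the approximation with layers of
arbitrary width
-/

open Finset Filter Topology

namespace Vale.Agent.P031.H951

open Vale.Agent.P031 Vale.Agent.P031.KA

/-- the asymptotic formula, with a boundary layer of width `E`. -/
lemma approx2 (hU : UpP) (hL : LowP) (hV : VLowP) (hVS : VLowSharpP) (hG : VGrowthP)
    (hB : VBadP) (hTh : ThP) : ∃ C₀ K c₀ : ℝ, 1 ≤ C₀ ∧ 0 < K ∧ 0 < c₀ ∧ c₀ ≤ 1 ∧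
    ∀ ε : ℝ, 0 < ε → ε ≤ 1 / 8 → ∀ᶠ M : ℕ in atTop, ∀ (x T E : ℝ), 3 ≤ x →
    |ll x - (M : ℝ) ^ 15 - T| ≤ 1 → 1 / 2 * (M : ℝ) ^ 20 ≤ T → T ≤ 41 / 20 * (M : ℝ) ^ 20 →
    C₀ * (M : ℝ) ^ 18 ≤ E → E ≤ c₀ * (M : ℝ) ^ 19 →
    |(V x : ℝ) - ∑ D ∈ DF M 0 1 (T - E), pc1 (x / (D : ℝ))| ≤
      (ε + K * (E / (M : ℝ) ^ 19)) * V x := by
  classical
  obtain ⟨Cs, hCs, hsharp⟩ := hVS
  obtain ⟨Cb, hCb, hbad⟩ := hB
  obtain ⟨Cv, hCv, hv⟩ := hV 0
  obtain ⟨K₁, hK₁, hreg⟩ := reg2 hU hL hV hG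
  obtain ⟨c₀, hc₀, hc1, hc2, hc3⟩ : ∃ c₀ : ℝ, 0 < c₀ ∧ c₀ ≤ 1 ∧ Cb * c₀ ≤ 1 / 1000 ∧
      K₁ * (Cb * c₀) ≤ 1 / 4 := by
    refine ⟨min 1 (min (1 / (1000 * Cb)) (1 / (4 * (K₁ * Cb)))), by positivity,
      min_le_left _ _, ?_, ?_⟩
    · calc Cb * min 1 (min (1 / (1000 * Cb)) (1 / (4 * (K₁ * Cb)))) ≤ Cb * (1 / (1000 * Cb)) := by
            gcongr
            exact (min_le_right _ _).trans (min_le_left _ _)
        _ = 1 / 1000 := by field_simp
    · calc K₁ * (Cb * min 1 (min (1 / (1000 * Cb)) (1 / (4 * (K₁ * Cb))))) ≤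
            K₁ * (Cb * (1 / (4 * (K₁ * Cb)))) := by
            gcongr
            exact (min_le_right _ _).trans (min_le_right _ _)
        _ = 1 / 4 := by field_simp
  refine ⟨max 1 Cs, 4 * (K₁ * Cb), c₀, le_max_left _ _, by positivity, hc₀, hc1, fun ε hε hε8 => ?_⟩
  set C₀ := max 1 Cs with hC₀
  have hC1 : 1 ≤ C₀ := le_max_left _ _
  have hCsC : Cs ≤ C₀ := le_max_right _ _
  have hC0 : 0 < C₀ := by linarith
  obtain ⟨δ, hδ⟩ : ∃ δ : ℝ, δ = ε / 4 := ⟨_, rfl⟩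
  have hδ0 : 0 < δ := by rw [hδ]; positivity
  have hδ1 : δ ≤ 1 / 32 := by rw [hδ]; linarith only [hε8]
  have hexpM : ∀ᶠ M : ℕ in atTop, Cv * (Real.exp (-(M : ℝ) ^ 2) + Real.exp (-(M : ℝ))) ≤ δ := by
    have h1 : Tendsto (fun M : ℕ => Real.exp (-(M : ℝ))) atTop (𝓝 0) :=
      Real.tendsto_exp_neg_atTop_nhds_zero.comp tendsto_natCast_atTop_atTop
    have h2 : ∀ᶠ M : ℕ in atTop, Real.exp (-(M : ℝ)) < δ / (2 * Cv) :=
      h1.eventually_lt_const (by positivity)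
    filter_upwards [h2, eventually_ge_atTop 1] with M h2 hM
    have hM1 : (1 : ℝ) ≤ M := by exact_mod_cast hM
    have h3 : Real.exp (-(M : ℝ) ^ 2) ≤ Real.exp (-(M : ℝ)) := by
      apply Real.exp_le_exp.2
      nlinarith only [hM1]
    have h4 : Cv * (δ / (2 * Cv)) = δ / 2 := by field_simp
    nlinarith only [hCv, h3, h2, h4]
  filter_upwards [hsharp δ hδ0, hbad, hv, hreg, hTh, hexpM,
    ev_pow_le Cv (1 / 100) (by norm_num) 18,
    ev_pow_le 1 (1 / 100) (by norm_num) 18,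
    ev_pow_le 1 (1 / 100) (by norm_num) 19, eventually_ge_atTop 1] with
    M hsharp hbad hv hreg hth hexpM e2 e3 e4 hM x T E hx hxT hT1 hT2 hE1 hE2
  have hM1 : (1 : ℝ) ≤ M := by exact_mod_cast hM
  norm_num at e2 e3 e4
  obtain ⟨hxT1, hxT2⟩ := abs_le.1 hxT
  have h15 : 1 ≤ (M : ℝ) ^ 15 := one_le_pow₀ hM1
  have h18 : 1 ≤ (M : ℝ) ^ 18 := one_le_pow₀ hM1
  have h19 : 1 ≤ (M : ℝ) ^ 19 := one_le_pow₀ hM1
  have h1518 : (M : ℝ) ^ 15 ≤ (M : ℝ) ^ 18 := pow_le_pow_right₀ hM1 (by norm_num)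
  have h1618 : (M : ℝ) ^ 16 ≤ (M : ℝ) ^ 18 := pow_le_pow_right₀ hM1 (by norm_num)
  have hlogx : 0 < Real.log x := Real.log_pos (by linarith only [hx])
  have hxl : 0 < x / Real.log x := div_pos (by linarith only [hx]) hlogx
  have hV0 : (0 : ℝ) ≤ V x := Nat.cast_nonneg _
  have hCvm : 0 < Cv * (M : ℝ) ^ 18 := by positivity
  have hC0m : (M : ℝ) ^ 18 ≤ E :=
    le_trans (by linarith only [mul_nonneg (sub_nonneg.2 hC1) (sub_nonneg.2 h18), hC1]) hE1
  have hE0 : 0 < E := by linarith only [hC0m, h18]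
  have hE19 : E ≤ (M : ℝ) ^ 19 := hE2.trans (by nlinarith only [hc1, h19])
  set S : ℝ := ∑ D ∈ DF M 0 1 (T - E), pc1 (x / (D : ℝ)) with hS
  have hS0 : 0 ≤ S := Finset.sum_nonneg fun _ _ => pc1_nonneg _
  -- lower bound
  have hlow : (1 - δ) * S ≤ V x := by
    refine le_trans ?_ (hsharp x T hx hxT hT1 (by linarith only [hT2, e4, e3, h18]))
    refine mul_le_mul_of_nonneg_left ?_ (by linarith only [hδ1])
    rw [hS]
    refine (Finset.sum_le_sum_of_subset_of_nonneg (DF_mono (M := M) (r := 0) (j := 1)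
        (T' := T - Cs * (M : ℝ) ^ 18) ?_)
      fun _ _ _ => pc1_nonneg _).trans (le_of_eq ?_)
    · have : Cs * (M : ℝ) ^ 18 ≤ C₀ * (M : ℝ) ^ 18 := by gcongr
      linarith only [this, hE1]
    · refine Finset.sum_congr rfl fun D _ => ?_
      rw [pc1, Nat.floor_add_one (by positivity)]
  -- V x is at least of order x / log x
  have hxV : x / Real.log x ≤ Cv * V x := by
    have h1 := hv 0 x le_rfl hx (by linarith only [e4, e3, hxT1, h18, h15, hT1]) (by linarith only [hxT2, hT2, h1518, e4, e3, h18])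
    have h2 := one_le_FF M 0 (ll x - Cv * (M : ℝ) ^ 18) (by linarith only [e4, e3, e2, hxT1, h18, h15, hT1])
    calc x / Real.log x = x / Real.log x * 1 := by ring
      _ ≤ x / Real.log x * FF M 0 1 0 (ll x - Cv * (M : ℝ) ^ 18) := by gcongr
      _ ≤ _ := h1
  -- upper bound
  set s := (Finset.Icc 1 ⌊x⌋₊).filter IsTot with hs
  have hVs : (V x : ℝ) = s.card := by rw [V_eq_card x (by linarith only [hx])]
  set A := s.filter (fun v => v ∉ DD M 0) with hAdef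
  set B := (s.filter (fun v => v ∈ DD M 0)).filter (fun v => ¬ ∃ p D : ℕ, p.Prime ∧
    D ∈ DF M 0 1 (T - E) ∧ v = (p - 1) * D) with hBdef
  set C := (s.filter (fun v => v ∈ DD M 0)).filter (fun v => ∃ p D : ℕ, p.Prime ∧
    D ∈ DF M 0 1 (T - E) ∧ v = (p - 1) * D) with hCdef
  have hmem : ∀ v ∈ s, IsTot v ∧ (v : ℝ) ≤ x := by
    intro v hv
    simp only [hs, Finset.mem_filter, Finset.mem_Icc] at hv
    exact ⟨hv.2, (Nat.le_floor_iff (by linarith only [hx])).1 hv.1.2⟩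
  have hcard : (s.card : ℝ) ≤ A.card + B.card + C.card := by
    have h1 : s ⊆ A ∪ B ∪ C := by
      intro v hv
      simp only [hAdef, hBdef, hCdef, Finset.mem_union, Finset.mem_filter]
      tauto
    have h2 := (Finset.card_le_card h1).trans (Finset.card_union_le _ _)
    have h3 := Finset.card_union_le A B
    exact_mod_cast h2.trans (Nat.add_le_add_right h3 _)
  have hA : (A.card : ℝ) ≤ x / Real.log x * Real.exp (-(M : ℝ) ^ 2) := by
    refine hth x A hx (by linarith only [hT1, h15, h18, hxT1, e3, e4, h1618]) (by linarith only [hxT2, hT2, h1518, e4, e3, h18]) fun v hv => ?_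
    simp only [hAdef, Finset.mem_filter] at hv
    exact ⟨(hmem v hv.1).1, (hmem v hv.1).2, hv.2⟩
  have hB : (B.card : ℝ) ≤ x / Real.log x * (Cb * E *
      FF M 0 2 0 (T + Cb * E) + Real.exp (-(M : ℝ))) := by
    refine hbad E x T B hx hC0m hE19 hxT hT1 (by linarith only [hT2, e4, e3, h18])
      fun v hv => ?_
    simp only [hBdef, Finset.mem_filter] at hv
    refine ⟨(hmem v hv.1.1).2, hv.1.2, fun p D h1 h2 _ h4 => hv.2 ⟨p, D, h2, h4, h1⟩⟩
  have hC : (C.card : ℝ) ≤ S := by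
    refine card_repr_le x _ _ (fun D hD => mem_DF_pos hD) fun v hv => ?_
    simp only [hCdef, Finset.mem_filter] at hv
    exact ⟨(hmem v hv.1.1).2, hv.2⟩
  have hCbE : Cb * E ≤ 1 / 1000 * (M : ℝ) ^ 19 := by
    calc Cb * E ≤ Cb * (c₀ * (M : ℝ) ^ 19) := by gcongr
      _ = (Cb * c₀) * (M : ℝ) ^ 19 := by ring
      _ ≤ 1 / 1000 * (M : ℝ) ^ 19 := by gcongr
  have hreg' := hreg x T (Cb * E) hx hxT hT1 hT2 (by positivity) hCbE
  -- the relative size of the layer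
  obtain ⟨κ, hκ⟩ : ∃ κ : ℝ, κ = K₁ * Cb * (E / (M : ℝ) ^ 19) := ⟨_, rfl⟩
  have hκ0 : 0 ≤ κ := by rw [hκ]; positivity
  have hκ1 : κ ≤ 1 / 4 := by
    have h1 : E / (M : ℝ) ^ 19 ≤ c₀ := by rw [div_le_iff₀ (by positivity)]; exact hE2
    calc κ = K₁ * Cb * (E / (M : ℝ) ^ 19) := hκ
      _ ≤ K₁ * Cb * c₀ := by gcongr
      _ = K₁ * (Cb * c₀) := by ring
      _ ≤ 1 / 4 := hc3
  have hreg2 : x / Real.log x * (Cb * E * FF M 0 2 0 (T + Cb * E)) ≤ κ * V x := by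
    refine hreg'.trans (le_of_eq ?_)
    rw [hκ]; ring
  have hup : (V x : ℝ) ≤ S + 2 * (δ + κ) * V x := by
    have h1 : x / Real.log x * Real.exp (-(M : ℝ) ^ 2) + x / Real.log x * Real.exp (-(M : ℝ)) ≤
        δ * V x := by
      calc x / Real.log x * Real.exp (-(M : ℝ) ^ 2) + x / Real.log x * Real.exp (-(M : ℝ))
          = x / Real.log x * (Real.exp (-(M : ℝ) ^ 2) + Real.exp (-(M : ℝ))) := by ring
        _ ≤ (Cv * V x) * (Real.exp (-(M : ℝ) ^ 2) + Real.exp (-(M : ℝ))) := by gcongr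
        _ = (Cv * (Real.exp (-(M : ℝ) ^ 2) + Real.exp (-(M : ℝ)))) * V x := by ring
        _ ≤ δ * V x := by gcongr
    have h2 : (V x : ℝ) ≤ x / Real.log x * Real.exp (-(M : ℝ) ^ 2) +
        x / Real.log x * (Cb * E *
        FF M 0 2 0 (T + Cb * E) + Real.exp (-(M : ℝ))) + S := by
      rw [hVs]; linarith only [hB, hA, hC, hcard]
    rw [mul_add] at h2
    have h3 : 0 ≤ δ * V x := by positivity
    have h4 : 0 ≤ κ * V x := by positivity
    have h5 : 2 * (δ + κ) * V x = 2 * (δ * V x) + 2 * (κ * V x) := by ring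
    rw [h5]
    linarith only [h2, hreg2, h1, h3, h4]
  have hlow' : (1 - (δ + κ)) * S ≤ V x := by
    refine le_trans ?_ hlow
    have : 0 ≤ κ * S := by positivity
    linarith only [this]
  have hfin := fin_abs (V x) S (δ + κ) (4 * (δ + κ)) (by positivity) (by linarith only [hδ1, hκ1])
    (by linarith only) hV0 hS0 hlow' hup
  refine hfin.trans (le_of_eq ?_)
  rw [hκ, hδ]; ring

/-- the integers `D` are very small compared to `x`. -/
lemma DF_size2 (ε : ℝ) (hε : 0 < ε) : ∀ᶠ M : ℕ in atTop, ∀ (x T E : ℝ) (D : ℕ), 3 ≤ x →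
    |ll x - (M : ℝ) ^ 15 - T| ≤ 1 → (M : ℝ) ^ 18 ≤ E → D ∈ DF M 0 1 (T - E) →
    Real.log D ≤ ε * Real.log x := by
  have hexp : ∀ᶠ M : ℕ in atTop, (M : ℝ) ^ 25 * Real.exp (-(M : ℝ)) < ε / Real.exp 1 :=
    ((Real.tendsto_pow_mul_exp_neg_atTop_nhds_zero 25).comp
      tendsto_natCast_atTop_atTop).eventually_lt_const (by positivity)
  filter_upwards [hexp, eventually_ge_atTop 1] with M hexp hM x T E D hx hxT hE hD
  have hM1 : (1 : ℝ) ≤ M := by exact_mod_cast hM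
  have hlogx : 0 < Real.log x := Real.log_pos (by linarith only [hx])
  have hD1 := mem_DF_pos hD
  have hDD := mem_DF_DD hD
  have hcost := mem_DF_cost hD
  have hOm : Om D ≤ M ^ 25 := by simpa using hDD.2
  have h18 : 1 ≤ (M : ℝ) ^ 18 := one_le_pow₀ hM1
  by_cases hg : gpf D ≤ 1
  · have h1 := le_gpf_pow D hD1
    have h2 : D ≤ 1 := h1.trans ((Nat.pow_le_pow_left hg _).trans (by simp))
    have h3 : D = 1 := by omega
    rw [h3]; simp; positivity
  · push Not at hg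
    have hg1 : (1 : ℝ) < gpf D := by exact_mod_cast hg
    have hlg : 0 < Real.log (gpf D) := Real.log_pos hg1
    have hY : YY M D ≤ Cost M 1 D := le_max_left _ _
    have hY2 : ll (gpf D : ℝ) - (M : ℝ) ^ 15 ≤ YY M D := le_max_right _ _
    obtain ⟨hxT1, hxT2⟩ := abs_le.1 hxT
    have hll : ll (gpf D : ℝ) ≤ ll x + (1 - (M : ℝ) ^ 18) := by linarith only [hE, hY, hxT1, hY2, hcost]
    have hM18 : (M : ℝ) ≤ (M : ℝ) ^ 18 := by
      calc (M : ℝ) = (M : ℝ) ^ 1 := (pow_one _).symm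
        _ ≤ (M : ℝ) ^ 18 := pow_le_pow_right₀ hM1 (by norm_num)
    have h1 : Real.log (gpf D) ≤ Real.log x * (Real.exp 1 * Real.exp (-(M : ℝ))) := by
      have h2 : Real.log (gpf D) = Real.exp (ll (gpf D : ℝ)) := by
        rw [ll, Real.exp_log hlg]
      have h3 : Real.log x = Real.exp (ll x) := by rw [ll, Real.exp_log hlogx]
      rw [h2, h3, ← Real.exp_add, ← Real.exp_add]
      apply Real.exp_le_exp.2
      linarith only [hM18, hll]
    have h4 : Real.log D ≤ Om D * Real.log (gpf D) := by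
      rw [← Real.log_pow]
      apply Real.log_le_log (by exact_mod_cast hD1)
      exact_mod_cast le_gpf_pow D hD1
    have h5 : (Om D : ℝ) ≤ (M : ℝ) ^ 25 := by exact_mod_cast hOm
    calc Real.log D ≤ Om D * Real.log (gpf D) := h4
      _ ≤ (M : ℝ) ^ 25 * (Real.log x * (Real.exp 1 * Real.exp (-(M : ℝ)))) := by gcongr
      _ = Real.log x * Real.exp 1 * ((M : ℝ) ^ 25 * Real.exp (-(M : ℝ))) := by ring
      _ ≤ Real.log x * Real.exp 1 * (ε / Real.exp 1) := by gcongr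
      _ = ε * Real.log x := by field_simp

end Vale.Agent.P031.H951
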