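import Vale.Agent.P031.Bdl.B2

/-!
# P031: regular variation of `V` on the `log log` scale, part 1: the boundary layer

The boundary layer of width `E ≤ M^19 / 1000` has relative size `O(E / M^19)`.
-/

open Finset Filter Topology

namespace Vale.Agent.P031.H951

open Vale.Agent.P031 Vale.Agent.P031.KA

/-- The boundary layer of width `E` has relative size `O(E / M^19)`. -/
lemma reg2 (hU : UpP) (hL : LowP) (hV : VLowP) (hG : VGrowthP) :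
    ∃ K : ℝ, 0 < K ∧ ∀ᶠ M : ℕ in atTop, ∀ (x T E : ℝ), 3 ≤ x →
    |ll x - (M : ℝ) ^ 15 - T| ≤ 1 → 1 / 2 * (M : ℝ) ^ 20 ≤ T → T ≤ 41 / 20 * (M : ℝ) ^ 20 →
    0 < E → E ≤ 1 / 1000 * (M : ℝ) ^ 19 →
    x / Real.log x * (E * FF M 0 2 0 (T + E)) ≤ K * (E / (M : ℝ) ^ 19) * V x := by
  obtain ⟨Cu, hCu, hup⟩ := up_iter hU 99 (21 / 5) (by norm_num)
  obtain ⟨Cl, hCl, hlow⟩ := low_iter hL 100 0 (21 / 5) (by norm_num)
  obtain ⟨Cv, hCv, hv⟩ := hV 100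
  have hK : ∃ K : ℝ, K = Cu * Cl * Cv * (2 ^ 100 + 2 ^ 99 * 4 ^ 100 * Cv) := ⟨_, rfl⟩
  obtain ⟨K, hK⟩ := hK
  have hK0 : 0 < K := by
    rw [hK]
    have h1 : (0 : ℝ) < 2 ^ 100 := by positivity
    have h2 : (0 : ℝ) < 2 ^ 99 * 4 ^ 100 * Cv := by positivity
    exact mul_pos (mul_pos (mul_pos hCu hCl) hCv) (add_pos h1 h2)
  refine ⟨K, hK0, ?_⟩
  filter_upwards [hup, hlow, hv, hG,
    ev_pow_le Cu (1 / 100) (by norm_num) 18, ev_pow_le Cl (1 / 100) (by norm_num) 18,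
    ev_pow_le Cv (1 / 100) (by norm_num) 18, ev_pow_le 1 (1 / 100) (by norm_num) 18,
    ev_pow_le 1 (1 / 100) (by norm_num) 19, ev_pow_le 1 1 one_pos 17,
    eventually_ge_atTop 1] with
      M hup hlow hv hgr e2 e3 e4 e5 e6 e7 hM x T E hx hxT hT1 hT2 hE0 hE
  have hM1 : (1 : ℝ) ≤ M := by exact_mod_cast hM
  have hM0 : (0 : ℝ) < M := by linarith only [hM1]
  have h15 : 1 ≤ (M : ℝ) ^ 15 := one_le_pow₀ hM1
  have h1518 : (M : ℝ) ^ 15 ≤ (M : ℝ) ^ 18 := pow_le_pow_right₀ hM1 (by norm_num)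
  norm_num at e2 e3 e4 e5 e6
  obtain ⟨hxT1, hxT2⟩ := abs_le.1 hxT
  have hlogx : 0 < Real.log x := Real.log_pos (by linarith only [hx])
  have hxl : 0 < x / Real.log x := div_pos (by linarith only [hx]) hlogx
  have h18 : 1 ≤ (M : ℝ) ^ 18 := one_le_pow₀ hM1
  have h18' : (0 : ℝ) < (M : ℝ) ^ 18 := by linarith only [h18]
  obtain ⟨C₁, hC₁eq⟩ : ∃ C₁ : ℝ, C₁ = E / (M : ℝ) ^ 18 := ⟨_, rfl⟩
  have hC₁ : 0 < C₁ := by rw [hC₁eq]; positivity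
  have hCE : C₁ * (M : ℝ) ^ 18 = E := by rw [hC₁eq]; field_simp
  have e1 : C₁ * (M : ℝ) ^ 18 ≤ 1 / 1000 * (M : ℝ) ^ 19 := by rw [hCE]; exact hE
  have hab : 2 * (C₁ + Cu + (Cl + Cv + 3)) * (M : ℝ) ^ 18 ≤ (M : ℝ) ^ 19 := by linarith only [e2, e3, e1, h1518, e4, h15, e5]
  have hT4 : 4 * (M : ℝ) ^ 19 ≤ T := by linarith only [hT1, h1518, e6, h15, e5]
  have s2 := FF_split M 99 T (C₁ + Cu) (Cl + Cv + 3) hM1 (by positivity) (by positivity) hab hT4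
  obtain ⟨y, hy⟩ : ∃ y : ℝ, y = Real.exp (Real.exp (2 * T + (Cl + Cv) * (M : ℝ) ^ 18)) := ⟨_, rfl⟩
  have hlly : ll y = 2 * T + (Cl + Cv) * (M : ℝ) ^ 18 := by
    rw [hy, ll, Real.log_exp, Real.log_exp]
  have hexp1 : 2 ≤ Real.exp (2 * T + (Cl + Cv) * (M : ℝ) ^ 18) := by
    have h1 := Real.add_one_le_exp (2 * T + (Cl + Cv) * (M : ℝ) ^ 18)
    have h2 : 0 ≤ (Cl + Cv) * (M : ℝ) ^ 18 := by positivity
    linarith only [hT1, h1518, h2, h1, e6, h15, e5]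
  have hy3 : 3 ≤ y := by
    rw [hy]
    have := Real.add_one_le_exp (Real.exp (2 * T + (Cl + Cv) * (M : ℝ) ^ 18))
    linarith only [hexp1, this]
  have hlogy : 0 < Real.log y := Real.log_pos (by linarith only [hy3])
  have hyl : 0 < y / Real.log y := div_pos (by linarith only [hy3]) hlogy
  have hC1m : 0 < C₁ * (M : ℝ) ^ 18 := mul_pos hC₁ (by linarith only [h1518, h15])
  have hCum : 0 < Cu * (M : ℝ) ^ 18 := mul_pos hCu (by linarith only [h1518, h15])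
  have hClm : 0 < Cl * (M : ℝ) ^ 18 := mul_pos hCl (by linarith only [h1518, h15])
  have hCvm : 0 < Cv * (M : ℝ) ^ 18 := mul_pos hCv (by linarith only [h1518, h15])
  have s1 := hup (T + C₁ * (M : ℝ) ^ 18) (by linarith only [hC1m, hT1, h1518, e6, h15, e5]) (by linarith only [e5, h15, e6, h1518, e1, hT2])
  have s3 := hlow (T - (Cl + Cv + 3) * (M : ℝ) ^ 18) (by linarith only [e3, hT1, h1518, e4, e6, h15, e5]) (by linarith only [hClm, hT2, h1518, hCvm, e6, h15, e5])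
  have s4 := hlow (2 * T) (by linarith only [hT1, h1518, e6, h15, e5]) (by linarith only [hT2, h1518, e6, h15, e5])
  have s5 := hv 100 x le_rfl hx (by linarith only [e5, h15, e6, h1518, hT1, hxT1]) (by linarith only [hxT2, hT2, h1518, e6, h15, e5])
  have s6 := hv 0 x (by norm_num) hx (by linarith only [e5, h15, e6, h1518, hT1, hxT1]) (by linarith only [hxT2, hT2, h1518, e6, h15, e5])
  have s7 := hv 100 y le_rfl hy3 (by rw [hlly]; linarith only [e5, h15, e6, hCvm, h1518, hT1, hClm]) (by rw [hlly]; linarith only [e3, hT2, h1518, e4, e6, h15, e5])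
  rw [hlly] at s7
  have s8 := hgr y T hy3 hT1 (by linarith only [hT2, h1518, e6, h15, e5]) (by rw [hlly]; linarith only [e5, h15, e6, hCvm, h1518, hT1, hClm]) (by rw [hlly]; linarith only [e3, hT1, h1518, e4, e6, h15, e5])
  simp only [zero_add] at s3 s4
  have t1 : FF M 100 1 0 (2 * T + Cl * (M : ℝ) ^ 18) ≤
      Cv * ((M : ℝ) ^ 61 * FF M 0 1 0 (9 / 10 * T)) := by
    have h1 : y / Real.log y * FF M 100 1 0 (2 * T + Cl * (M : ℝ) ^ 18) ≤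
        y / Real.log y * (Cv * ((M : ℝ) ^ 61 * FF M 0 1 0 (9 / 10 * T))) := by
      have h2 : 2 * T + (Cl + Cv) * (M : ℝ) ^ 18 - Cv * (M : ℝ) ^ 18 = 2 * T + Cl * (M : ℝ) ^ 18 := by ring
      rw [h2] at s7
      calc _ ≤ Cv * (V y : ℝ) := s7
        _ ≤ Cv * (y / Real.log y * (M : ℝ) ^ 61 * FF M 0 1 0 (9 / 10 * T)) := by gcongr
        _ = _ := by ring
    exact le_of_mul_le_mul_left h1 hyl
  have t2 : FF M 0 1 0 (9 / 10 * T) ≤ FF M 0 1 0 (ll x - Cv * (M : ℝ) ^ 18) :=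
    FF_mono (by linarith only [hxT1, hT1, h1518, e4, e6, h15, e5])
  have t3 : FF M 100 1 0 (T - (Cl + Cv + 3) * (M : ℝ) ^ 18 + Cl * (M : ℝ) ^ 18) ≤
      FF M 100 1 0 (ll x - Cv * (M : ℝ) ^ 18) := FF_mono (by linarith only [hxT1, h1518, h15])
  have hA : FF M 0 101 100 (T - (Cl + Cv + 3) * (M : ℝ) ^ 18) ≤ Cl * FF M 100 1 0 (ll x - Cv * (M : ℝ) ^ 18) :=
    s3.trans (mul_le_mul_of_nonneg_left t3 hCl.le)
  have hB : FF M 0 101 100 (2 * T) ≤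
      Cl * (Cv * ((M : ℝ) ^ 61 * FF M 0 1 0 (ll x - Cv * (M : ℝ) ^ 18))) := by
    refine s4.trans (mul_le_mul_of_nonneg_left (t1.trans ?_) hCl.le)
    gcongr
  have hG' : FF M 0 2 0 (T + C₁ * (M : ℝ) ^ 18) ≤ Cu * (2 ^ 100 / (M : ℝ) ^ 19 *
      FF M 0 101 100 (T - (Cl + Cv + 3) * (M : ℝ) ^ 18) + (2 * (M : ℝ) ^ 19) ^ 99 * (2 / T) ^ 100 *
      FF M 0 101 100 (2 * T)) := by
    refine s1.trans (mul_le_mul_of_nonneg_left ?_ hCu.le)
    rw [show T + C₁ * (M : ℝ) ^ 18 + Cu * (M : ℝ) ^ 18 = T + (C₁ + Cu) * (M : ℝ) ^ 18 by ring]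
    exact s2
  have key := reg_num M C₁ Cu Cl Cv (FF M 100 1 0 (ll x - Cv * (M : ℝ) ^ 18))
    (FF M 0 1 0 (ll x - Cv * (M : ℝ) ^ 18)) (x / Real.log x) (V x) _ _ _ T hM1 hC₁ hCu hCl hCv hxl
    hT1 hA hB (FF_nonneg _ _ _ _ _) hG' s5 s6
  rw [hCE] at key
  refine key.trans (le_of_eq ?_)
  have h4 : C₁ * Cu * Cl * Cv * (2 ^ 100 + 2 ^ 99 * 4 ^ 100 * Cv) = C₁ * K := by rw [hK]; ring
  rw [h4, hC₁eq]
  have h5 : (M : ℝ) ^ 19 = (M : ℝ) ^ 18 * M := pow_succ _ _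
  rw [h5]
  have h6 : (M : ℝ) ^ 18 ≠ 0 := h18'.ne'
  generalize (M : ℝ) ^ 18 = m at h6
  field_simp

end Vale.Agent.P031.H951
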