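import Vale.Agent.P031.H951.Approx

/-!
# P031: regular variation of `V` on the `log log` scale

`Z x = V x * log x / x` satisfies `Z y = (1 + o(1)) Z x` as soon as
`|log log y - log log x| = o((log log x) ^ (19 / 20))`.
-/

open Finset Filter Topology

namespace Vale.Agent.P031.H951

open Vale.Agent.P031 Vale.Agent.P031.KA

/-- the seven inputs, proved. -/
lemma inputs : UpP ∧ LowP ∧ VLowP ∧ VLowSharpP ∧ VGrowthP ∧ VBadP ∧ ThP :=
  ⟨up, low_of np_mass (col_use_mass_of (cl_mass_of cl_count)), v_low_of np_count cl_count,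
    v_low_sharp_of np_count cl_count, J3.v_growth_of th, v_bad, th⟩

/-- `π(y+1) = (1 + o(1)) y / log y`. -/
lemma pc1_near_log (ε : ℝ) (hε : 0 < ε) : ∃ Y : ℝ, 3 ≤ Y ∧ ∀ y : ℝ, Y ≤ y →
    |pc1 y - y / Real.log y| ≤ ε * (y / Real.log y) := by
  have h1 := pc1_mul_log_tendsto
  have h2 : Tendsto (fun y : ℝ => (y + 1) / y) atTop (𝓝 1) := by
    have h3 : Tendsto (fun y : ℝ => 1 + y⁻¹) atTop (𝓝 (1 + 0)) :=
      tendsto_const_nhds.add tendsto_inv_atTop_zero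
    rw [add_zero] at h3
    refine h3.congr' ?_
    filter_upwards [eventually_gt_atTop 0] with y hy
    field_simp
  have h3 : Tendsto (fun y : ℝ => Real.log y / Real.log (y + 1)) atTop (𝓝 1) := by
    have h4 : Tendsto (fun y : ℝ => Real.log ((y + 1) / y)) atTop (𝓝 (Real.log 1)) :=
      (Real.continuousAt_log one_ne_zero).tendsto.comp h2
    rw [Real.log_one] at h4
    have h5 : Tendsto (fun y : ℝ => (Real.log (y + 1))⁻¹) atTop (𝓝 0) :=
      tendsto_inv_atTop_zero.comp (Real.tendsto_log_atTop.comp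
        (tendsto_atTop_add_const_right atTop (1 : ℝ) tendsto_id))
    have h6 : Tendsto (fun y : ℝ => 1 - Real.log ((y + 1) / y) * (Real.log (y + 1))⁻¹) atTop
        (𝓝 (1 - 0 * 0)) := tendsto_const_nhds.sub (h4.mul h5)
    rw [mul_zero, sub_zero] at h6
    refine h6.congr' ?_
    filter_upwards [eventually_gt_atTop 1] with y hy
    have h7 : 0 < Real.log (y + 1) := Real.log_pos (by linarith)
    rw [Real.log_div (by linarith) (by linarith)]
    field_simp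
    ring
  have h4 : Tendsto (fun y : ℝ => pc1 y / (y / Real.log y)) atTop (𝓝 1) := by
    have h5 := (h1.mul h2).mul h3
    rw [mul_one, mul_one] at h5
    refine h5.congr' ?_
    filter_upwards [eventually_gt_atTop 1] with y hy
    have h7 : 0 < Real.log (y + 1) := Real.log_pos (by linarith)
    have h8 : 0 < Real.log y := Real.log_pos hy
    have h9 : y + 1 ≠ 0 := by positivity
    have h10 : y ≠ 0 := by positivity
    field_simp
  rw [Metric.tendsto_atTop] at h4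
  obtain ⟨Y, hY⟩ := h4 ε hε
  refine ⟨max Y 3, le_max_right _ _, fun y hy => ?_⟩
  have hy3 : 3 ≤ y := (le_max_right _ _).trans hy
  have h5 := hY y ((le_max_left _ _).trans hy)
  rw [Real.dist_eq] at h5
  have h6 : 0 < y / Real.log y := div_pos (by linarith) (Real.log_pos (by linarith))
  have h7 : pc1 y / (y / Real.log y) - 1 = (pc1 y - y / Real.log y) / (y / Real.log y) := by
    rw [sub_div, div_self h6.ne']
  rw [h7, abs_div, abs_of_pos h6, div_lt_iff₀ h6] at h5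
  exact h5.le

/-- the total mass of the integers `D`. -/
noncomputable def WW (M : ℕ) (τ : ℝ) : ℝ := ∑ D ∈ DF M 0 1 τ, 1 / (D : ℝ)

lemma WW_pos (M : ℕ) (τ : ℝ) (hτ : 0 ≤ τ) : 0 < WW M τ := by
  have h := one_le_FF M 0 τ hτ
  have h2 : FF M 0 1 0 τ = WW M τ := by
    unfold FF WW
    refine Finset.sum_congr rfl fun D _ => ?_
    rw [pow_zero]
  rw [h2] at h
  linarith

/-- the sum of prime counting functions over a family of `D` is `(1 + o(1)) (x / log x)` times the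
mass of the family. -/
lemma sum_pc1_sub (ε : ℝ) (hε : 0 < ε) (hε1 : ε ≤ 1 / 4) : ∃ x₁ : ℝ, 3 ≤ x₁ ∧ ∀ᶠ M : ℕ in atTop,
    ∀ (x T E : ℝ), x₁ ≤ x → |ll x - (M : ℝ) ^ 15 - T| ≤ 1 → (M : ℝ) ^ 18 ≤ E →
    ∀ G : Finset ℕ, G ⊆ DF M 0 1 (T - E) →
    |∑ D ∈ G, pc1 (x / (D : ℝ)) - x / Real.log x * ∑ D ∈ G, 1 / (D : ℝ)| ≤
      4 * ε * (x / Real.log x * ∑ D ∈ G, 1 / (D : ℝ)) := by
  obtain ⟨Y, hY3, hY⟩ := pc1_near_log ε hε
  refine ⟨max 3 (Y ^ 2), le_max_left _ _, ?_⟩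
  filter_upwards [DF_size2 ε hε] with M hsz x T E hx hxT hE
  have hx3 : 3 ≤ x := (le_max_left _ _).trans hx
  have hxY : Y ^ 2 ≤ x := (le_max_right _ _).trans hx
  have hlogx : 0 < Real.log x := Real.log_pos (by linarith only [hx3])
  have hx0 : 0 < x := by linarith only [hx3]
  have key : ∀ D ∈ DF M 0 1 (T - E), |pc1 (x / (D : ℝ)) - x / Real.log x * (1 / (D : ℝ))| ≤
      4 * ε * (x / Real.log x * (1 / (D : ℝ))) := by
    intro D hD
    have hD1 : (1 : ℝ) ≤ D := by exact_mod_cast mem_DF_pos hD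
    have hD0 : (0 : ℝ) < D := by linarith only [hD1]
    have hs := hsz x T E D hx3 hxT hE hD
    have hlD : 0 ≤ Real.log D := Real.log_nonneg hD1
    have hlog : Real.log (x / D) = Real.log x - Real.log D := Real.log_div hx0.ne' hD0.ne'
    have hl1 : (1 - ε) * Real.log x ≤ Real.log (x / D) := by rw [hlog]; linarith only [hs]
    have hl2 : Real.log (x / D) ≤ Real.log x := by rw [hlog]; linarith only [hlD]
    have hl0 : 0 < Real.log (x / D) :=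
      lt_of_lt_of_le (mul_pos (by linarith only [hε1]) hlogx) hl1
    have hYy : Y ≤ x / D := by
      have h1 : Real.log (Y ^ 2) ≤ Real.log x := Real.log_le_log (by positivity) hxY
      rw [Real.log_pow] at h1
      push_cast at h1
      have h2 : Real.log Y ≤ Real.log (x / D) := by nlinarith only [h1, hl1, hε1, hlogx]
      exact (Real.log_le_log_iff (by linarith only [hY3]) (by positivity)).1 h2
    have h3 := hY (x / D) hYy
    obtain ⟨a, ha⟩ : ∃ a : ℝ, a = x / Real.log x * (1 / (D : ℝ)) := ⟨_, rfl⟩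
    have ha0 : 0 < a := by rw [ha]; positivity
    have h4 : a ≤ x / D / Real.log (x / D) := by
      have : a = x / D / Real.log x := by rw [ha]; field_simp
      rw [this]
      exact div_le_div_of_nonneg_left (by positivity) hl0 hl2
    have h5 : x / D / Real.log (x / D) ≤ (1 + 2 * ε) * a := by
      have h6 : a = x / D / Real.log x := by rw [ha]; field_simp
      rw [div_le_iff₀ hl0]
      have h7 : x / D = a * Real.log x := by rw [h6]; field_simp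
      have h8 : a * Real.log x ≤ (1 + 2 * ε) * a * ((1 - ε) * Real.log x) := by
        have h9 : 0 < a * Real.log x := by positivity
        nlinarith only [h9, hε, hε1, mul_nonneg (mul_nonneg h9.le hε.le) (by linarith only [hε1] : (0:ℝ) ≤ 1 - 2 * ε)]
      calc x / D = a * Real.log x := h7
        _ ≤ (1 + 2 * ε) * a * ((1 - ε) * Real.log x) := h8
        _ ≤ (1 + 2 * ε) * a * Real.log (x / D) := by gcongr
    rw [← ha]
    obtain ⟨b, hb⟩ : ∃ b : ℝ, b = x / D / Real.log (x / D) := ⟨_, rfl⟩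
    rw [← hb] at h3 h4 h5
    obtain ⟨h3a, h3b⟩ := abs_le.1 h3
    have h10 : ε * b ≤ ε * ((1 + 2 * ε) * a) := by gcongr
    have h11 : ε * ((1 + 2 * ε) * a) ≤ 3 / 2 * (ε * a) := by
      have : 0 < ε * a := by positivity
      nlinarith only [this, hε1]
    have h12 : 0 < ε * a := by positivity
    rw [abs_le]
    constructor
    · linarith only [h3a, h10, h11, h4, h12]
    · linarith only [h3b, h10, h11, h5, h12]
  intro G hG
  rw [Finset.mul_sum, ← Finset.sum_sub_distrib, Finset.mul_sum]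
  exact (Finset.abs_sum_le_sum_abs _ _).trans (Finset.sum_le_sum fun D hD => key D (hG hD))

/-- the sum of prime counting functions is `(1 + o(1)) (x / log x)` times the mass. -/
lemma sum_pc1 (ε : ℝ) (hε : 0 < ε) (hε1 : ε ≤ 1 / 4) : ∃ x₁ : ℝ, 3 ≤ x₁ ∧ ∀ᶠ M : ℕ in atTop,
    ∀ (x T E : ℝ), x₁ ≤ x → |ll x - (M : ℝ) ^ 15 - T| ≤ 1 → (M : ℝ) ^ 18 ≤ E →
    |∑ D ∈ DF M 0 1 (T - E), pc1 (x / (D : ℝ)) - x / Real.log x * WW M (T - E)| ≤
      4 * ε * (x / Real.log x * WW M (T - E)) := by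
  obtain ⟨x₁, hx₁, h⟩ := sum_pc1_sub ε hε hε1
  refine ⟨x₁, hx₁, ?_⟩
  filter_upwards [h] with M h x T E hx hxT hE
  exact h x T E hx hxT hE _ (Finset.Subset.refl _)

/-- combination of two relative approximations -/
lemma comb (v S w a b : ℝ) (hv : 0 ≤ v) (hw : 0 ≤ w) (ha0 : 0 ≤ a) (hb0 : 0 ≤ b)
    (ha : a ≤ 1 / 4) (hb : b ≤ 1 / 4) (h1 : |v - S| ≤ a * v) (h2 : |S - w| ≤ b * w) :
    |v - w| ≤ 3 * (a + b) * w := by
  obtain ⟨h1a, h1b⟩ := abs_le.1 h1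
  obtain ⟨h2a, h2b⟩ := abs_le.1 h2
  have h3 : (1 - a) * v ≤ (1 + b) * w := by linarith only [h1b, h2b]
  have h4 : (1 - b) * w ≤ (1 + a) * v := by linarith only [h1a, h2a]
  have hbw : 0 ≤ b * w := by positivity
  have haw : 0 ≤ a * w := by positivity
  have hvw : v ≤ 2 * w := by nlinarith only [h3, ha, hb, hv, hw]
  rw [abs_le]
  constructor
  · -- w - v ≤ 3 (a + b) w
    have h5 : a * v ≤ 2 * (a * w) := by nlinarith only [mul_nonneg ha0 (sub_nonneg.2 hvw)]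
    linarith only [h4, h5, hbw, haw]
  · have h5 : a * v ≤ 2 * (a * w) := by nlinarith only [mul_nonneg ha0 (sub_nonneg.2 hvw)]
    linarith only [h3, h5, hbw, haw]

/-- `V x` is `(1 + o(1)) (x / log x)` times a mass which depends on `x` only through a threshold
that can be chosen freely in a long interval. -/
lemma approx3 : ∃ C₀ K c₀ : ℝ, 1 ≤ C₀ ∧ 0 < K ∧ 0 < c₀ ∧ c₀ ≤ 1 ∧
    ∀ ε : ℝ, 0 < ε → ε ≤ 1 / 64 → ∃ x₁ : ℝ, 3 ≤ x₁ ∧ ∀ᶠ M : ℕ in atTop, ∀ (x T E : ℝ), x₁ ≤ x →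
    |ll x - (M : ℝ) ^ 15 - T| ≤ 1 → 1 / 2 * (M : ℝ) ^ 20 ≤ T → T ≤ 41 / 20 * (M : ℝ) ^ 20 →
    C₀ * (M : ℝ) ^ 18 ≤ E → E ≤ c₀ * (M : ℝ) ^ 19 →
    |(V x : ℝ) - x / Real.log x * WW M (T - E)| ≤
      (ε + K * (E / (M : ℝ) ^ 19)) * (x / Real.log x * WW M (T - E)) := by
  obtain ⟨hU, hL, hV, hVS, hG, hB, hTh⟩ := inputs
  obtain ⟨C₀, K, c₀, hC₀, hK, hc₀, hc1, happ⟩ := approx2 hU hL hV hVS hG hB hTh
  refine ⟨C₀, 3 * K, min c₀ (1 / (8 * K)), hC₀, by positivity, by positivity,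
    (min_le_left _ _).trans hc1, fun ε hε hε1 => ?_⟩
  obtain ⟨x₁, hx₁, hs⟩ := sum_pc1 (ε / 24) (by positivity) (by linarith only [hε1])
  refine ⟨x₁, hx₁, ?_⟩
  filter_upwards [hs, happ (ε / 6) (by positivity) (by linarith only [hε1]),
    ev_pow_le 1 (1 / 100) (by norm_num) 18, ev_pow_le 1 (1 / 100) (by norm_num) 19,
    eventually_ge_atTop 1] with
    M hs happ e3 e4 hM x T E hx hxT hT1 hT2 hE1 hE2
  have hM1 : (1 : ℝ) ≤ M := by exact_mod_cast hM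
  have h18 : 1 ≤ (M : ℝ) ^ 18 := one_le_pow₀ hM1
  have h19 : 1 ≤ (M : ℝ) ^ 19 := one_le_pow₀ hM1
  have hx3 : 3 ≤ x := hx₁.trans hx
  have hlogx : 0 < Real.log x := Real.log_pos (by linarith only [hx3])
  have hxl : 0 < x / Real.log x := div_pos (by linarith only [hx3]) hlogx
  have hE18 : (M : ℝ) ^ 18 ≤ E := le_trans (by nlinarith only [hC₀, h18]) hE1
  have hEc : E ≤ c₀ * (M : ℝ) ^ 19 := hE2.trans (by gcongr; exact min_le_left _ _)
  have hEK : K * (E / (M : ℝ) ^ 19) ≤ 1 / 8 := by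
    have h1 : E / (M : ℝ) ^ 19 ≤ 1 / (8 * K) := by
      rw [div_le_iff₀ (by positivity)]
      refine hE2.trans ?_
      gcongr
      exact min_le_right _ _
    calc K * (E / (M : ℝ) ^ 19) ≤ K * (1 / (8 * K)) := by gcongr
      _ = 1 / 8 := by field_simp
  have h1 := happ x T E hx3 hxT hT1 hT2 hE1 hEc
  have h2 := hs x T E hx hxT hE18
  have hE0 : 0 < E := by linarith only [hE18, h18]
  have hW : 0 < WW M (T - E) := by
    refine WW_pos M _ ?_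
    norm_num at e3 e4
    have hE19 : E ≤ (M : ℝ) ^ 19 := hEc.trans (by nlinarith only [hc1, h19])
    linarith only [hT1, hE19, e4, h19]
  have hκ0 : 0 ≤ K * (E / (M : ℝ) ^ 19) := by positivity
  refine (comb (V x) _ _ (ε / 6 + K * (E / (M : ℝ) ^ 19)) (4 * (ε / 24)) (Nat.cast_nonneg _)
    (by positivity) (by positivity) (by positivity) (by linarith only [hε1, hEK])
    (by linarith only [hε1]) h1 h2).trans (le_of_eq ?_)
  ring

/-- **Regular variation of the counting function of totients on the `log log` scale.**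
With `Z x = V x * log x / x`, for every `ε > 0` there are `δ > 0` and `x₀` such that
`|Z y - Z x| ≤ ε Z x` whenever `x ≥ x₀` and `|log log y - log log x| ≤ δ (log log x)^(19/20)`. -/
theorem regvar (ε : ℝ) (hε : 0 < ε) : ∃ δ : ℝ, 0 < δ ∧ ∃ x₀ : ℝ, ∀ x y : ℝ, x₀ ≤ x → 3 ≤ y →
    |ll y - ll x| ≤ δ * (ll x) ^ ((19 : ℝ) / 20) →
    |(V y : ℝ) * Real.log y / y - (V x : ℝ) * Real.log x / x| ≤
      ε * ((V x : ℝ) * Real.log x / x) := by
  obtain ⟨C₀, K, c₀, hC₀, hK, hc₀, hc1, happ⟩ := approx3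
  obtain ⟨ε₁, hε₁0, hε₁1, hε₁⟩ : ∃ ε₁ : ℝ, 0 < ε₁ ∧ ε₁ ≤ 1 ∧ ε₁ ≤ ε :=
    ⟨min 1 ε, by positivity, min_le_left _ _, min_le_right _ _⟩
  obtain ⟨x₁, hx₁, hM⟩ := happ (ε₁ / 64) (by positivity) (by linarith only [hε₁1])
  obtain ⟨δ, hδ0, hδ1, hδ2⟩ : ∃ δ : ℝ, 0 < δ ∧ δ ≤ c₀ / 4 ∧ K * δ ≤ ε₁ / 20 := by
    refine ⟨min (c₀ / 4) (ε₁ / (20 * K)), by positivity, min_le_left _ _, ?_⟩
    calc K * min (c₀ / 4) (ε₁ / (20 * K)) ≤ K * (ε₁ / (20 * K)) := by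
          gcongr
          exact min_le_right _ _
      _ = ε₁ / 20 := by field_simp
  refine ⟨δ, hδ0, ?_⟩
  obtain ⟨M₀, hM₀⟩ := eventually_atTop.1 (((hM.and (ev_pow_le C₀ (c₀ / 2) (by positivity) 18)).and
    (ev_pow_le (K * C₀) (ε₁ / 16) (by positivity) 0)).and (eventually_ge_atTop 1000))
  have hlim : Tendsto (fun x : ℝ => ll x) atTop atTop :=
    Real.tendsto_log_atTop.comp Real.tendsto_log_atTop
  obtain ⟨x₀, hx₀⟩ := eventually_atTop.1 (((hlim.eventually_ge_atTop (((M₀ : ℝ) + 1) ^ 20)).and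
    (hlim.eventually_gt_atTop (2 * ll x₁))).and (eventually_ge_atTop x₁))
  refine ⟨x₀, fun x y hx hy hxy => ?_⟩
  obtain ⟨⟨g1, g2⟩, g3⟩ := hx₀ x hx
  obtain ⟨M, hM0, hMx, hxM⟩ := exists_M x M₀ g1
  obtain ⟨⟨⟨hap, hC18⟩, hKC⟩, hM1000⟩ := hM₀ M hM0
  have hM1000' : (1000 : ℝ) ≤ M := by exact_mod_cast hM1000
  have hMpos : (0 : ℝ) < M := by linarith only [hM1000']
  have hM1 : (1 : ℝ) ≤ M := by linarith only [hM1000']
  have hx3 : 3 ≤ x := hx₁.trans g3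
  have hM1' : (M : ℝ) + 1 ≤ 1001 / 1000 * M := by linarith only [hM1000']
  have h20 : ((M : ℝ) + 1) ^ 20 ≤ 41 / 40 * (M : ℝ) ^ 20 := by
    calc ((M : ℝ) + 1) ^ 20 ≤ (1001 / 1000 * M) ^ 20 := by gcongr
      _ = (1001 / 1000) ^ 20 * (M : ℝ) ^ 20 := by rw [mul_pow]
      _ ≤ 41 / 40 * (M : ℝ) ^ 20 := by gcongr; norm_num
  have h19 : ((M : ℝ) + 1) ^ 19 ≤ 5 / 4 * (M : ℝ) ^ 19 := by
    calc ((M : ℝ) + 1) ^ 19 ≤ (1001 / 1000 * M) ^ 19 := by gcongr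
      _ = (1001 / 1000) ^ 19 * (M : ℝ) ^ 19 := by rw [mul_pow]
      _ ≤ 5 / 4 * (M : ℝ) ^ 19 := by gcongr; norm_num
  have hp19 : 0 < (M : ℝ) ^ 19 := by positivity
  have hp20 : 1000 * (M : ℝ) ^ 19 ≤ (M : ℝ) ^ 20 := by
    rw [pow_succ (M : ℝ) 19]; nlinarith only [hp19, hM1000']
  have hp15 : (M : ℝ) ^ 15 ≤ (M : ℝ) ^ 19 := pow_le_pow_right₀ hM1 (by norm_num)
  have hp15' : 0 < (M : ℝ) ^ 15 := by positivity
  have hllx0 : 0 < ll x := lt_of_lt_of_le (by positivity) hMx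
  have ht : (ll x) ^ ((19 : ℝ) / 20) ≤ 5 / 4 * (M : ℝ) ^ 19 := by
    have h1 : (ll x) ^ ((19 : ℝ) / 20) ≤ (((M : ℝ) + 1) ^ 20) ^ ((19 : ℝ) / 20) :=
      Real.rpow_le_rpow hllx0.le hxM (by norm_num)
    have h2 : (((M : ℝ) + 1) ^ 20) ^ ((19 : ℝ) / 20) = ((M : ℝ) + 1) ^ 19 := by
      rw [← Real.rpow_natCast, ← Real.rpow_natCast, ← Real.rpow_mul (by positivity)]
      norm_num
    rw [h2] at h1
    exact h1.trans h19
  have hδM : |ll y - ll x| ≤ 5 / 4 * δ * (M : ℝ) ^ 19 := by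
    refine hxy.trans ?_
    calc δ * (ll x) ^ ((19 : ℝ) / 20) ≤ δ * (5 / 4 * (M : ℝ) ^ 19) := by gcongr
      _ = _ := by ring
  have hδs : δ ≤ 1 / 4 := by linarith only [hδ1, hc1]
  obtain ⟨hd1, hd2⟩ := abs_le.1 hδM
  have hδM' : 5 / 4 * δ * (M : ℝ) ^ 19 ≤ (M : ℝ) ^ 19 := by nlinarith only [hδs, hp19, hδ0]
  have hy1 : x₁ ≤ y := by
    by_contra hcon
    push Not at hcon
    have h1 : ll y ≤ ll x₁ := ll_mono (by linarith only [hy]) hcon.le
    linarith only [h1, g2, hd1, hδM', hp20, hMx, hp19]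
  obtain ⟨Tx, hTx⟩ : ∃ Tx : ℝ, Tx = ll x - (M : ℝ) ^ 15 := ⟨_, rfl⟩
  obtain ⟨Ty, hTy⟩ : ∃ Ty : ℝ, Ty = ll y - (M : ℝ) ^ 15 := ⟨_, rfl⟩
  obtain ⟨τ, hτ⟩ : ∃ τ : ℝ, τ = min Tx Ty - C₀ * (M : ℝ) ^ 18 := ⟨_, rfl⟩
  have hTxy : |Tx - Ty| ≤ 5 / 4 * δ * (M : ℝ) ^ 19 := by
    rw [hTx, hTy, abs_sub_comm]
    rw [show ll y - (M : ℝ) ^ 15 - (ll x - (M : ℝ) ^ 15) = ll y - ll x by ring]
    exact hδM
  obtain ⟨hTxy1, hTxy2⟩ := abs_le.1 hTxy
  have hC18' : C₀ * (M : ℝ) ^ 18 ≤ c₀ / 2 * (M : ℝ) ^ 19 := hC18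
  have hEb : ∀ T' : ℝ, T' - min Tx Ty ≤ 5 / 4 * δ * (M : ℝ) ^ 19 →
      K * ((T' - τ) / (M : ℝ) ^ 19) ≤ ε₁ / 8 ∧ T' - τ ≤ c₀ * (M : ℝ) ^ 19 := by
    intro T' hT'
    have h1 : T' - τ ≤ C₀ * (M : ℝ) ^ 18 + 5 / 4 * δ * (M : ℝ) ^ 19 := by rw [hτ]; linarith only [hT']
    refine ⟨?_, ?_⟩
    · have h2 : K * ((T' - τ) / (M : ℝ) ^ 19) ≤
          K * ((C₀ * (M : ℝ) ^ 18 + 5 / 4 * δ * (M : ℝ) ^ 19) / (M : ℝ) ^ 19) := by gcongr
      have h3 : K * ((C₀ * (M : ℝ) ^ 18 + 5 / 4 * δ * (M : ℝ) ^ 19) / (M : ℝ) ^ 19) =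
          K * C₀ / M + 5 / 4 * (K * δ) := by
        rw [pow_succ (M : ℝ) 18]
        have h5 : (M : ℝ) ^ 18 ≠ 0 := by positivity
        generalize (M : ℝ) ^ 18 = m at h5
        field_simp
      have h4 : K * C₀ / M ≤ ε₁ / 16 := by
        rw [div_le_iff₀ hMpos]
        simpa using hKC
      linarith only [h2, h3, h4, hδ2]
    · have h2 : 5 / 4 * δ * (M : ℝ) ^ 19 ≤ 5 / 4 * (c₀ / 4) * (M : ℝ) ^ 19 := by gcongr
      have h3 : 0 < c₀ * (M : ℝ) ^ 19 := by positivity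
      linarith only [h1, h2, hC18', h3]
  have hmx : Tx - min Tx Ty ≤ 5 / 4 * δ * (M : ℝ) ^ 19 := by
    rcases le_total Tx Ty with h | h
    · rw [min_eq_left h, sub_self]; positivity
    · rw [min_eq_right h]; exact hTxy2
  have hmy : Ty - min Tx Ty ≤ 5 / 4 * δ * (M : ℝ) ^ 19 := by
    rcases le_total Tx Ty with h | h
    · rw [min_eq_left h]; linarith only [hTxy1]
    · rw [min_eq_right h, sub_self]; positivity
  obtain ⟨hKx, hEx⟩ := hEb Tx hmx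
  obtain ⟨hKy, hEy⟩ := hEb Ty hmy
  have hEx' : C₀ * (M : ℝ) ^ 18 ≤ Tx - τ := by rw [hτ]; linarith only [min_le_left Tx Ty]
  have hEy' : C₀ * (M : ℝ) ^ 18 ≤ Ty - τ := by rw [hτ]; linarith only [min_le_right Tx Ty]
  have ax := hap x Tx (Tx - τ) g3 (by rw [hTx]; simp) (by rw [hTx]; linarith only [hMx, hp20, hp15, hp19])
    (by rw [hTx]; linarith only [hxM, h20, hp15', hp19, hp20]) hEx' hEx
  have ay := hap y Ty (Ty - τ) hy1 (by rw [hTy]; simp)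
    (by rw [hTy]; linarith only [hMx, hp20, hp15, hp19, hd1, hδM'])
    (by rw [hTy]; linarith only [hxM, h20, hp15', hp19, hp20, hd2, hδM']) hEy' hEy
  rw [sub_sub_cancel] at ax ay
  have hlogx : 0 < Real.log x := Real.log_pos (by linarith only [hx3])
  have hlogy : 0 < Real.log y := Real.log_pos (by linarith only [hy])
  have hW : 0 < WW M τ := by
    refine WW_pos M _ ?_
    have h1 : 1 / 2 * (M : ℝ) ^ 20 ≤ Tx := by rw [hTx]; linarith only [hMx, hp20, hp15, hp19]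
    have h2 : c₀ * (M : ℝ) ^ 19 ≤ (M : ℝ) ^ 19 := by nlinarith only [hc1, hp19]
    linarith only [h1, h2, hEx, hp20, hp19]
  -- divide by `x / log x`
  have hdiv : ∀ z : ℝ, 3 ≤ z → ∀ θ : ℝ,
      |(V z : ℝ) - z / Real.log z * WW M τ| ≤ θ * (z / Real.log z * WW M τ) →
      |(V z : ℝ) * Real.log z / z - WW M τ| ≤ θ * WW M τ := by
    intro z hz θ h
    have hlz : 0 < Real.log z := Real.log_pos (by linarith only [hz])
    have hz0 : 0 < z := by linarith only [hz]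
    have hX : 0 < z / Real.log z := by positivity
    have h1 : (V z : ℝ) * Real.log z / z - WW M τ =
        ((V z : ℝ) - z / Real.log z * WW M τ) / (z / Real.log z) := by
      field_simp
    rw [h1, abs_div, abs_of_pos hX, div_le_iff₀ hX]
    calc _ ≤ θ * (z / Real.log z * WW M τ) := h
      _ = _ := by ring
  have bx := hdiv x hx3 _ ax
  have by' := hdiv y hy _ ay
  obtain ⟨θx, hθx⟩ : ∃ θx : ℝ, θx = ε₁ / 64 + K * ((Tx - τ) / (M : ℝ) ^ 19) := ⟨_, rfl⟩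
  obtain ⟨θy, hθy⟩ : ∃ θy : ℝ, θy = ε₁ / 64 + K * ((Ty - τ) / (M : ℝ) ^ 19) := ⟨_, rfl⟩
  rw [← hθx] at bx
  rw [← hθy] at by'
  have hθx1 : θx ≤ 3 / 16 * ε₁ := by rw [hθx]; linarith only [hKx, hε₁0]
  have hθy1 : θy ≤ 3 / 16 * ε₁ := by rw [hθy]; linarith only [hKy, hε₁0]
  obtain ⟨Zx, hZx⟩ : ∃ Zx : ℝ, Zx = (V x : ℝ) * Real.log x / x := ⟨_, rfl⟩
  obtain ⟨Zy, hZy⟩ : ∃ Zy : ℝ, Zy = (V y : ℝ) * Real.log y / y := ⟨_, rfl⟩
  rw [← hZx] at bx ⊢
  rw [← hZy] at by' ⊢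
  obtain ⟨bx1, bx2⟩ := abs_le.1 bx
  obtain ⟨by1, by2⟩ := abs_le.1 by'
  generalize WW M τ = W at *
  have h1 : θx * W ≤ 3 / 16 * ε₁ * W := by gcongr
  have h2 : θy * W ≤ 3 / 16 * ε₁ * W := by gcongr
  have h3 : ε₁ * W ≤ 1 * W := by gcongr
  have h4 : W ≤ 5 / 4 * Zx := by linarith only [bx1, h1, h3, hW]
  have h5 : ε₁ * W ≤ ε₁ * (5 / 4 * Zx) := by gcongr
  have hZ0 : 0 < Zx := by linarith only [h4, hW]
  have h6 : ε₁ * Zx ≤ ε * Zx := by gcongr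
  have h7 : 0 < ε₁ * Zx := by positivity
  rw [abs_le]
  constructor
  · linarith only [bx2, by1, h1, h2, h5, h6, h7]
  · linarith only [bx1, by2, h1, h2, h5, h6, h7]

end Vale.Agent.P031.H951
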