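import Vale.Agent.P031.H951.RegVar
import Vale.Agent.P031.H928.Final

/-!
# P031: the whole law of the multiplicity is slowly varying on the `log log` scale
-/

open Finset Filter Topology

namespace Vale.Agent.P031.H951

open Vale.Agent.P031.KA

open Classical in
/-- the mass of the integers `D` whose multiplicity lies in `A`. -/
noncomputable def WK (M : ℕ) (τ : ℝ) (S A : Set ℕ) : ℝ :=
  ∑ D ∈ (DF M 0 1 τ).filter (fun D => ML.mult S D ∈ A), 1 / (D : ℝ)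

open Classical in
/-- The counting function of every class of totients defined by the multiplicity is
`x / log x` times a mass that depends on `x` only through a threshold, which can be chosen freely
in a long interval. -/
lemma approx4 : ∃ C₀ K c₀ : ℝ, 1 ≤ C₀ ∧ 0 < K ∧ 0 < c₀ ∧ c₀ ≤ 1 ∧
    ∀ (ε : ℝ) (P : ℕ), 0 < ε → ε ≤ 1 / 64 → ∃ x₁ : ℝ, 3 ≤ x₁ ∧ ∀ᶠ M : ℕ in atTop,
    ∀ (x T E : ℝ), x₁ ≤ x →
    |ll x - (M : ℝ) ^ 15 - T| ≤ 1 → 1 / 2 * (M : ℝ) ^ 20 ≤ T → T ≤ 41 / 20 * (M : ℝ) ^ 20 →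
    C₀ * (M : ℝ) ^ 18 ≤ E → E ≤ c₀ * (M : ℝ) ^ 19 →
    |(ML.V x : ℝ) - x / Real.log x * WW M (T - E)| ≤
      (ε + K * (E / (M : ℝ) ^ 19)) * (x / Real.log x * WW M (T - E)) ∧
    ∀ S A : Set ℕ, ML.Stable P S →
    |(ML.VSK S A x : ℝ) - x / Real.log x * WK M (T - E) S A| ≤
      (ε + K * (E / (M : ℝ) ^ 19)) * (x / Real.log x * WW M (T - E)) := by
  obtain ⟨hU, hL, hV, hVS, hG, hB, hTh⟩ := inputs
  obtain ⟨C₁, K₁, c₁, hC₁, hK₁, hc₁, hc11, happ⟩ := H951.approx2 hU hL hV hVS hG hB hTh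
  obtain ⟨C₂, K₂, c₂, hC₂, hK₂, hc₂, hc21, happ3⟩ := approx3
  obtain ⟨C₃, hC₃, hstr⟩ := ML.struct
  refine ⟨max C₁ (max C₂ C₃), 2 * K₁ + K₂, min (min c₁ c₂) (1 / (8 * K₂)),
    hC₁.trans (le_max_left _ _), by positivity, by positivity,
    ((min_le_left _ _).trans (min_le_left _ _)).trans hc11, fun ε P hε hε1 => ?_⟩
  obtain ⟨x₁, hx₁, hs⟩ := sum_pc1_sub (ε / 24) (by positivity) (by linarith only [hε1])
  obtain ⟨x₃, hx₃, hs3⟩ := happ3 (ε / 2) (by positivity) (by linarith only [hε1])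
  have hpow : Tendsto (fun x : ℝ => x ^ (1 - 1 / 4 : ℝ)) atTop atTop :=
    tendsto_rpow_atTop (by norm_num)
  obtain ⟨x₂, hx₂⟩ := eventually_atTop.1 (hpow.eventually_ge_atTop (P : ℝ))
  refine ⟨max x₁ (max x₂ x₃), hx₁.trans (le_max_left _ _), ?_⟩
  filter_upwards [hs, hs3, happ (ε / 12) (by positivity) (by linarith only [hε1]),
    hstr (1 / 4) (ε / 40) (by norm_num) le_rfl (by positivity),
    ev_pow_le 1 (1 / 100) (by norm_num) 18, ev_pow_le 1 (1 / 100) (by norm_num) 19,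
    eventually_ge_atTop 1] with
    M hs hs3 happ hstr e3 e4 hM x T E hx hxT hT1 hT2 hE1 hE2
  have hxx₁ : x₁ ≤ x := (le_max_left _ _).trans hx
  have hxx₂ : x₂ ≤ x := ((le_max_left _ _).trans (le_max_right _ _)).trans hx
  have hxx₃ : x₃ ≤ x := ((le_max_right _ _).trans (le_max_right _ _)).trans hx
  have hM1 : (1 : ℝ) ≤ M := by exact_mod_cast hM
  have h18 : 1 ≤ (M : ℝ) ^ 18 := one_le_pow₀ hM1
  have h19 : 1 ≤ (M : ℝ) ^ 19 := one_le_pow₀ hM1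
  have hx3 : 3 ≤ x := hx₁.trans hxx₁
  have hlogx : 0 < Real.log x := Real.log_pos (by linarith only [hx3])
  have hxl : 0 < x / Real.log x := div_pos (by linarith only [hx3]) hlogx
  have hE1a : C₁ * (M : ℝ) ^ 18 ≤ E := le_trans (by gcongr; exact le_max_left _ _) hE1
  have hE1b : C₂ * (M : ℝ) ^ 18 ≤ E :=
    le_trans (by gcongr; exact (le_max_left _ _).trans (le_max_right _ _)) hE1
  have hE1c : C₃ * (M : ℝ) ^ 18 ≤ E :=
    le_trans (by gcongr; exact (le_max_right _ _).trans (le_max_right _ _)) hE1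
  have hE2a : E ≤ c₁ * (M : ℝ) ^ 19 :=
    hE2.trans (by gcongr; exact (min_le_left _ _).trans (min_le_left _ _))
  have hE2b : E ≤ c₂ * (M : ℝ) ^ 19 :=
    hE2.trans (by gcongr; exact (min_le_left _ _).trans (min_le_right _ _))
  have hE18 : (M : ℝ) ^ 18 ≤ E := le_trans (by nlinarith only [hC₁, h18]) hE1a
  have hE0 : 0 < E := by linarith only [hE18, h18]
  have hEM0 : 0 ≤ E / (M : ℝ) ^ 19 := by positivity
  have hEK : K₂ * (E / (M : ℝ) ^ 19) ≤ 1 / 8 := by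
    have h1 : E / (M : ℝ) ^ 19 ≤ 1 / (8 * K₂) := by
      rw [div_le_iff₀ (by positivity)]
      refine hE2.trans ?_
      gcongr
      exact min_le_right _ _
    calc K₂ * (E / (M : ℝ) ^ 19) ≤ K₂ * (1 / (8 * K₂)) := by gcongr
      _ = 1 / 8 := by field_simp
  have hW : 0 < WW M (T - E) := by
    refine WW_pos M _ ?_
    norm_num at e3 e4
    have hE19 : E ≤ (M : ℝ) ^ 19 := hE2a.trans (by nlinarith only [hc11, h19])
    linarith only [hT1, hE19, e4, h19]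
  obtain ⟨X, hX⟩ : ∃ X : ℝ, X = x / Real.log x * WW M (T - E) := ⟨_, rfl⟩
  have hX0 : 0 < X := by rw [hX]; positivity
  -- the approximation of `V`
  have a3 := hs3 x T E hxx₃ hxT hT1 hT2 hE1b hE2b
  rw [← hX] at a3
  have hV2 : (ML.V x : ℝ) ≤ 2 * X := by
    have h1 := (abs_le.1 a3).2
    have h2 : (ε / 2 + K₂ * (E / (M : ℝ) ^ 19)) * X ≤ 1 * X := by
      gcongr
      linarith only [hε1, hEK]
    rw [ML.V_eq_V]
    linarith only [h1, h2]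
  have hV0 : (0 : ℝ) ≤ ML.V x := Nat.cast_nonneg _
  have hκ : K₁ * (E / (M : ℝ) ^ 19) * ML.V x ≤ K₁ * (E / (M : ℝ) ^ 19) * (2 * X) := by gcongr
  have hεV : ε * ML.V x ≤ ε * (2 * X) := by gcongr
  have hεX : 0 < ε * X := by positivity
  have hK2X : 0 ≤ K₂ * (E / (M : ℝ) ^ 19) * X := by positivity
  have hK1X : 0 ≤ K₁ * (E / (M : ℝ) ^ 19) * X := by positivity
  rw [← hX]
  refine ⟨?_, fun S A hS => ?_⟩
  · rw [ML.V_eq_V]
    refine a3.trans ?_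
    have : (ε + (2 * K₁ + K₂) * (E / (M : ℝ) ^ 19)) * X =
      ε * X + 2 * (K₁ * (E / (M : ℝ) ^ 19) * X) + K₂ * (E / (M : ℝ) ^ 19) * X := by ring
    rw [this]
    linarith only [hεX, hK2X, hK1X]
  -- the two families
  have b1 := happ x T E hx3 hxT hT1 hT2 hE1a hE2a
  obtain ⟨b2, b3⟩ := hstr x T hx3 hxT hT1 hT2
  have b4 := ML.VSK_approx (K := A) hx3 hS (hx₂ x hxx₂) b2 b3
  have hsub : DF M 0 1 (T - E) ⊆ DF M 0 1 (T - C₃ * (M : ℝ) ^ 18) :=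
    DF_mono (by linarith only [hE1c])
  have hnn : ∀ D : ℕ, 0 ≤ pc1 (x / (D : ℝ)) := fun _ => pc1_nonneg _
  obtain ⟨F₁, hF₁⟩ : ∃ F₁ : Finset ℕ, F₁ = DF M 0 1 (T - C₃ * (M : ℝ) ^ 18) := ⟨_, rfl⟩
  obtain ⟨F₂, hF₂⟩ : ∃ F₂ : Finset ℕ, F₂ = DF M 0 1 (T - E) := ⟨_, rfl⟩
  rw [← hF₁] at b2 b4 hsub
  rw [← hF₂] at hsub
  have c1 : ∑ D ∈ F₂.filter (fun D => ML.mult S D ∈ A), pc1 (x / (D : ℝ)) ≤
      ∑ D ∈ F₁.filter (fun D => ML.mult S D ∈ A), pc1 (x / (D : ℝ)) :=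
    Finset.sum_le_sum_of_subset_of_nonneg (Finset.filter_subset_filter _ hsub) fun _ _ _ => hnn _
  have c2 : ∑ D ∈ F₁.filter (fun D => ML.mult S D ∈ A), pc1 (x / (D : ℝ)) -
      ∑ D ∈ F₂.filter (fun D => ML.mult S D ∈ A), pc1 (x / (D : ℝ)) ≤
      ∑ D ∈ F₁, pc1 (x / (D : ℝ)) - ∑ D ∈ F₂, pc1 (x / (D : ℝ)) := by
    rw [← Finset.sum_filter_add_sum_filter_not F₁ (fun D => ML.mult S D ∈ A),
      ← Finset.sum_filter_add_sum_filter_not F₂ (fun D => ML.mult S D ∈ A)]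
    have : ∑ D ∈ F₂.filter (fun D => ¬ ML.mult S D ∈ A), pc1 (x / (D : ℝ)) ≤
      ∑ D ∈ F₁.filter (fun D => ¬ ML.mult S D ∈ A), pc1 (x / (D : ℝ)) :=
      Finset.sum_le_sum_of_subset_of_nonneg (Finset.filter_subset_filter _ hsub) fun _ _ _ => hnn _
    linarith only [this]
  rw [← hF₂, ← ML.V_eq_V] at b1
  rw [← ML.V_eq_V] at b2
  -- the mass
  have d1 := hs x T E hxx₁ hxT hE18 (F₂.filter (fun D => ML.mult S D ∈ A))
    (by rw [hF₂]; exact Finset.filter_subset _ _)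
  have hWK : ∑ D ∈ F₂.filter (fun D => ML.mult S D ∈ A), 1 / (D : ℝ) = WK M (T - E) S A := by
    unfold WK
    rw [← hF₂]
  rw [hWK] at d1
  have d2 : WK M (T - E) S A ≤ WW M (T - E) :=
    Finset.sum_le_sum_of_subset_of_nonneg (Finset.filter_subset _ _) fun _ _ _ => by positivity
  have d3 : x / Real.log x * WK M (T - E) S A ≤ X := by rw [hX]; gcongr
  have d4 : 4 * (ε / 24) * (x / Real.log x * WK M (T - E) S A) ≤ 4 * (ε / 24) * X := by gcongr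
  obtain ⟨b1a, b1b⟩ := abs_le.1 b1
  obtain ⟨b2a, b2b⟩ := abs_le.1 b2
  obtain ⟨b4a, b4b⟩ := abs_le.1 b4
  obtain ⟨d1a, d1b⟩ := abs_le.1 d1
  have hexp : (ε + (2 * K₁ + K₂) * (E / (M : ℝ) ^ 19)) * X =
      ε * X + 2 * (K₁ * (E / (M : ℝ) ^ 19) * X) + K₂ * (E / (M : ℝ) ^ 19) * X := by ring
  rw [hexp]
  have hexp2 : (ε / 12 + K₁ * (E / (M : ℝ) ^ 19)) * (ML.V x : ℝ) =
      ε * ML.V x / 12 + K₁ * (E / (M : ℝ) ^ 19) * ML.V x := by ring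
  rw [hexp2] at b1a b1b
  rw [abs_le]
  constructor
  · linarith only [b1a, b1b, b2a, b2b, b4a, b4b, d1a, d1b, d4, hκ, hεV, hεX, hK2X, hK1X, c1, c2]
  · linarith only [b1a, b1b, b2a, b2b, b4a, b4b, d1a, d1b, d4, hκ, hεV, hεX, hK2X, hK1X, c1, c2]

/-- **The law of the multiplicity is slowly varying on the `log log` scale.** -/
theorem regvarK (ε : ℝ) (hε : 0 < ε) (P : ℕ) : ∃ δ : ℝ, 0 < δ ∧ ∃ x₀ : ℝ, ∀ x y : ℝ, x₀ ≤ x →
    3 ≤ y → |ll y - ll x| ≤ δ * (ll x) ^ ((19 : ℝ) / 20) → ∀ S A : Set ℕ, ML.Stable P S →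
    |(ML.VSK S A y : ℝ) * Real.log y / y - (ML.VSK S A x : ℝ) * Real.log x / x| ≤
      ε * ((ML.V x : ℝ) * Real.log x / x) := by
  obtain ⟨C₀, K, c₀, hC₀, hK, hc₀, hc1, happ⟩ := approx4
  obtain ⟨ε₁, hε₁0, hε₁1, hε₁⟩ : ∃ ε₁ : ℝ, 0 < ε₁ ∧ ε₁ ≤ 1 ∧ ε₁ ≤ ε :=
    ⟨min 1 ε, by positivity, min_le_left _ _, min_le_right _ _⟩
  obtain ⟨x₁, hx₁, hM⟩ := happ (ε₁ / 64) P (by positivity) (by linarith only [hε₁1])
  obtain ⟨δ, hδ0, hδ1, hδ2⟩ : ∃ δ : ℝ, 0 < δ ∧ δ ≤ c₀ / 4 ∧ K * δ ≤ ε₁ / 20 := by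
    refine ⟨min (c₀ / 4) (ε₁ / (20 * K)), by positivity, min_le_left _ _, ?_⟩
    calc K * min (c₀ / 4) (ε₁ / (20 * K)) ≤ K * (ε₁ / (20 * K)) := by
          gcongr
          exact min_le_right _ _
      _ = ε₁ / 20 := by field_simp
  refine ⟨δ, hδ0, ?_⟩
  obtain ⟨M₀, hM₀⟩ := eventually_atTop.1 (((hM.and (ev_pow_le C₀ (c₀ / 2) (by positivity) 18)).and
    (ev_pow_le (K * C₀) (ε₁ / 16) (by positivity) 0)).and (eventually_ge_atTop 1000))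
  have hlim : Tendsto (fun x : ℝ => ll x) atTop atTop :=
    Real.tendsto_log_atTop.comp Real.tendsto_log_atTop
  obtain ⟨x₀, hx₀⟩ := eventually_atTop.1 (((hlim.eventually_ge_atTop (((M₀ : ℝ) + 1) ^ 20)).and
    (hlim.eventually_gt_atTop (2 * ll x₁))).and (eventually_ge_atTop x₁))
  refine ⟨x₀, fun x y hx hy hxy S A hS => ?_⟩
  obtain ⟨⟨g1, g2⟩, g3⟩ := hx₀ x hx
  obtain ⟨M, hM0, hMx, hxM⟩ := exists_M x M₀ g1
  obtain ⟨⟨⟨hap, hC18⟩, hKC⟩, hM1000⟩ := hM₀ M hM0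
  have hM1000' : (1000 : ℝ) ≤ M := by exact_mod_cast hM1000
  have hMpos : (0 : ℝ) < M := by linarith only [hM1000']
  have hM1 : (1 : ℝ) ≤ M := by linarith only [hM1000']
  have hx3 : 3 ≤ x := hx₁.trans g3
  have hM1' : (M : ℝ) + 1 ≤ 1001 / 1000 * M := by linarith only [hM1000']
  have h20 : ((M : ℝ) + 1) ^ 20 ≤ 41 / 40 * (M : ℝ) ^ 20 := by
    calc ((M : ℝ) + 1) ^ 20 ≤ (1001 / 1000 * M) ^ 20 := by gcongr
      _ = (1001 / 1000) ^ 20 * (M : ℝ) ^ 20 := by rw [mul_pow]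
      _ ≤ 41 / 40 * (M : ℝ) ^ 20 := by gcongr; norm_num
  have h19 : ((M : ℝ) + 1) ^ 19 ≤ 5 / 4 * (M : ℝ) ^ 19 := by
    calc ((M : ℝ) + 1) ^ 19 ≤ (1001 / 1000 * M) ^ 19 := by gcongr
      _ = (1001 / 1000) ^ 19 * (M : ℝ) ^ 19 := by rw [mul_pow]
      _ ≤ 5 / 4 * (M : ℝ) ^ 19 := by gcongr; norm_num
  have hp19 : 0 < (M : ℝ) ^ 19 := by positivity
  have hp20 : 1000 * (M : ℝ) ^ 19 ≤ (M : ℝ) ^ 20 := by
    rw [pow_succ (M : ℝ) 19]; nlinarith only [hp19, hM1000']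
  have hp15 : (M : ℝ) ^ 15 ≤ (M : ℝ) ^ 19 := pow_le_pow_right₀ hM1 (by norm_num)
  have hp15' : 0 < (M : ℝ) ^ 15 := by positivity
  have hllx0 : 0 < ll x := lt_of_lt_of_le (by positivity) hMx
  have ht : (ll x) ^ ((19 : ℝ) / 20) ≤ 5 / 4 * (M : ℝ) ^ 19 := by
    have h1 : (ll x) ^ ((19 : ℝ) / 20) ≤ (((M : ℝ) + 1) ^ 20) ^ ((19 : ℝ) / 20) :=
      Real.rpow_le_rpow hllx0.le hxM (by norm_num)
    have h2 : (((M : ℝ) + 1) ^ 20) ^ ((19 : ℝ) / 20) = ((M : ℝ) + 1) ^ 19 := by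
      rw [← Real.rpow_natCast, ← Real.rpow_natCast, ← Real.rpow_mul (by positivity)]
      norm_num
    rw [h2] at h1
    exact h1.trans h19
  have hδM : |ll y - ll x| ≤ 5 / 4 * δ * (M : ℝ) ^ 19 := by
    refine hxy.trans ?_
    calc δ * (ll x) ^ ((19 : ℝ) / 20) ≤ δ * (5 / 4 * (M : ℝ) ^ 19) := by gcongr
      _ = _ := by ring
  have hδs : δ ≤ 1 / 4 := by linarith only [hδ1, hc1]
  obtain ⟨hd1, hd2⟩ := abs_le.1 hδM
  have hδM' : 5 / 4 * δ * (M : ℝ) ^ 19 ≤ (M : ℝ) ^ 19 := by nlinarith only [hδs, hp19, hδ0]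
  have hy1 : x₁ ≤ y := by
    by_contra hcon
    push Not at hcon
    have h1 : ll y ≤ ll x₁ := ll_mono (by linarith only [hy]) hcon.le
    linarith only [h1, g2, hd1, hδM', hp20, hMx, hp19]
  obtain ⟨Tx, hTx⟩ : ∃ Tx : ℝ, Tx = ll x - (M : ℝ) ^ 15 := ⟨_, rfl⟩
  obtain ⟨Ty, hTy⟩ : ∃ Ty : ℝ, Ty = ll y - (M : ℝ) ^ 15 := ⟨_, rfl⟩
  obtain ⟨τ, hτ⟩ : ∃ τ : ℝ, τ = min Tx Ty - C₀ * (M : ℝ) ^ 18 := ⟨_, rfl⟩
  have hTxy : |Tx - Ty| ≤ 5 / 4 * δ * (M : ℝ) ^ 19 := by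
    rw [hTx, hTy, abs_sub_comm]
    rw [show ll y - (M : ℝ) ^ 15 - (ll x - (M : ℝ) ^ 15) = ll y - ll x by ring]
    exact hδM
  obtain ⟨hTxy1, hTxy2⟩ := abs_le.1 hTxy
  have hC18' : C₀ * (M : ℝ) ^ 18 ≤ c₀ / 2 * (M : ℝ) ^ 19 := hC18
  have hEb : ∀ T' : ℝ, T' - min Tx Ty ≤ 5 / 4 * δ * (M : ℝ) ^ 19 →
      K * ((T' - τ) / (M : ℝ) ^ 19) ≤ ε₁ / 8 ∧ T' - τ ≤ c₀ * (M : ℝ) ^ 19 := by
    intro T' hT'
    have h1 : T' - τ ≤ C₀ * (M : ℝ) ^ 18 + 5 / 4 * δ * (M : ℝ) ^ 19 := by rw [hτ]; linarith only [hT']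
    refine ⟨?_, ?_⟩
    · have h2 : K * ((T' - τ) / (M : ℝ) ^ 19) ≤
          K * ((C₀ * (M : ℝ) ^ 18 + 5 / 4 * δ * (M : ℝ) ^ 19) / (M : ℝ) ^ 19) := by gcongr
      have h3 : K * ((C₀ * (M : ℝ) ^ 18 + 5 / 4 * δ * (M : ℝ) ^ 19) / (M : ℝ) ^ 19) =
          K * C₀ / M + 5 / 4 * (K * δ) := by
        rw [pow_succ (M : ℝ) 18]
        have h5 : (M : ℝ) ^ 18 ≠ 0 := by positivity
        generalize (M : ℝ) ^ 18 = m at h5
        field_simp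
      have h4 : K * C₀ / M ≤ ε₁ / 16 := by
        rw [div_le_iff₀ hMpos]
        simpa using hKC
      linarith only [h2, h3, h4, hδ2]
    · have h2 : 5 / 4 * δ * (M : ℝ) ^ 19 ≤ 5 / 4 * (c₀ / 4) * (M : ℝ) ^ 19 := by gcongr
      have h3 : 0 < c₀ * (M : ℝ) ^ 19 := by positivity
      linarith only [h1, h2, hC18', h3]
  have hmx : Tx - min Tx Ty ≤ 5 / 4 * δ * (M : ℝ) ^ 19 := by
    rcases le_total Tx Ty with h | h
    · rw [min_eq_left h, sub_self]; positivity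
    · rw [min_eq_right h]; exact hTxy2
  have hmy : Ty - min Tx Ty ≤ 5 / 4 * δ * (M : ℝ) ^ 19 := by
    rcases le_total Tx Ty with h | h
    · rw [min_eq_left h]; linarith only [hTxy1]
    · rw [min_eq_right h, sub_self]; positivity
  obtain ⟨hKx, hEx⟩ := hEb Tx hmx
  obtain ⟨hKy, hEy⟩ := hEb Ty hmy
  have hEx' : C₀ * (M : ℝ) ^ 18 ≤ Tx - τ := by rw [hτ]; linarith only [min_le_left Tx Ty]
  have hEy' : C₀ * (M : ℝ) ^ 18 ≤ Ty - τ := by rw [hτ]; linarith only [min_le_right Tx Ty]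
  obtain ⟨ax, axK⟩ := hap x Tx (Tx - τ) g3 (by rw [hTx]; simp)
    (by rw [hTx]; linarith only [hMx, hp20, hp15, hp19])
    (by rw [hTx]; linarith only [hxM, h20, hp15', hp19, hp20]) hEx' hEx
  obtain ⟨-, ayK⟩ := hap y Ty (Ty - τ) hy1 (by rw [hTy]; simp)
    (by rw [hTy]; linarith only [hMx, hp20, hp15, hp19, hd1, hδM'])
    (by rw [hTy]; linarith only [hxM, h20, hp15', hp19, hp20, hd2, hδM']) hEy' hEy
  replace axK := axK S A hS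
  replace ayK := ayK S A hS
  rw [sub_sub_cancel] at ax axK ayK
  have hlogx : 0 < Real.log x := Real.log_pos (by linarith only [hx3])
  have hlogy : 0 < Real.log y := Real.log_pos (by linarith only [hy])
  have hW : 0 < WW M τ := by
    refine WW_pos M _ ?_
    have h1 : 1 / 2 * (M : ℝ) ^ 20 ≤ Tx := by rw [hTx]; linarith only [hMx, hp20, hp15, hp19]
    have h2 : c₀ * (M : ℝ) ^ 19 ≤ (M : ℝ) ^ 19 := by nlinarith only [hc1, hp19]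
    linarith only [h1, h2, hEx, hp20, hp19]
  -- divide by `x / log x`
  have hdiv : ∀ z : ℝ, 3 ≤ z → ∀ v w θ : ℝ,
      |v - z / Real.log z * w| ≤ θ * (z / Real.log z * WW M τ) →
      |v * Real.log z / z - w| ≤ θ * WW M τ := by
    intro z hz v w θ h
    have hlz : 0 < Real.log z := Real.log_pos (by linarith only [hz])
    have hz0 : 0 < z := by linarith only [hz]
    have hX : 0 < z / Real.log z := by positivity
    have h1 : v * Real.log z / z - w = (v - z / Real.log z * w) / (z / Real.log z) := by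
      field_simp
    rw [h1, abs_div, abs_of_pos hX, div_le_iff₀ hX]
    calc _ ≤ θ * (z / Real.log z * WW M τ) := h
      _ = _ := by ring
  have bx := hdiv x hx3 _ _ _ ax
  have bxK := hdiv x hx3 _ _ _ axK
  have byK := hdiv y hy _ _ _ ayK
  obtain ⟨θx, hθx⟩ : ∃ θx : ℝ, θx = ε₁ / 64 + K * ((Tx - τ) / (M : ℝ) ^ 19) := ⟨_, rfl⟩
  obtain ⟨θy, hθy⟩ : ∃ θy : ℝ, θy = ε₁ / 64 + K * ((Ty - τ) / (M : ℝ) ^ 19) := ⟨_, rfl⟩
  rw [← hθx] at bx bxK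
  rw [← hθy] at byK
  have hθx1 : θx ≤ 3 / 16 * ε₁ := by rw [hθx]; linarith only [hKx, hε₁0]
  have hθy1 : θy ≤ 3 / 16 * ε₁ := by rw [hθy]; linarith only [hKy, hε₁0]
  obtain ⟨Zx, hZx⟩ : ∃ Zx : ℝ, Zx = (ML.V x : ℝ) * Real.log x / x := ⟨_, rfl⟩
  rw [← hZx] at bx ⊢
  obtain ⟨bx1, bx2⟩ := abs_le.1 bx
  obtain ⟨ax1, ax2⟩ := abs_le.1 bxK
  obtain ⟨by1, by2⟩ := abs_le.1 byK
  have h1 : θx * WW M τ ≤ 3 / 16 * ε₁ * WW M τ := by gcongr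
  have h2 : θy * WW M τ ≤ 3 / 16 * ε₁ * WW M τ := by gcongr
  have h3 : ε₁ * WW M τ ≤ 1 * WW M τ := by gcongr
  have h4 : WW M τ ≤ 5 / 4 * Zx := by linarith only [bx1, h1, h3, hW]
  have h5 : ε₁ * WW M τ ≤ ε₁ * (5 / 4 * Zx) := by gcongr
  have hZ0 : 0 < Zx := by linarith only [h4, hW]
  have h6 : ε₁ * Zx ≤ ε * Zx := by gcongr
  have h7 : 0 < ε₁ * Zx := by positivity
  rw [abs_le]
  constructor
  · linarith only [ax2, by1, h1, h2, h5, h6, h7]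
  · linarith only [ax1, by2, h1, h2, h5, h6, h7]

end Vale.Agent.P031.H951
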